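import Vale.Agent.P163.Lattice

/-! For every number of components `n ≥ 3` and every inverse temperature, two-dimensional O(n)
correlations decay at least like a power whose exponent grows linearly in `n`. -/

open Filter Topology
open Vale.Agent.P163

namespace Vale.Agent.Results.P163.PowerDecayLinearInN

theorem result : ∀ (n : ℕ), 3 ≤ n → ∀ β η : ℝ, 0 < β → η < n / (4 * Real.pi * β) →
    ∃ C : ℝ,
      (∀ (Λ : Finset (ℤ × ℤ)) (x y : Λ),
        |boxCorr n β Λ x y| ≤ C * (1 + siteDist x y) ^ (-η)) ∧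
      (∀ (M : ℕ) [NeZero M] (x y : ℤ × ℤ), 2 * |x.1 - y.1| ≤ M → 2 * |x.2 - y.2| ≤ M →
        |torusCorr n β M x y| ≤ C * (1 + siteDist x y) ^ (-η)) ∧
      (∀ (x y : ℤ × ℤ) (ℓ : ℝ),
        ((∃ (Λ : ℕ → Finset (ℤ × ℤ)) (hx : ∀ k, x ∈ Λ k) (hy : ∀ k, y ∈ Λ k),
            Tendsto (fun k => boxCorr n β (Λ k) ⟨x, hx k⟩ ⟨y, hy k⟩) atTop (𝓝 ℓ)) ∨
         (∃ M : ℕ → ℕ, Tendsto M atTop atTop ∧
            Tendsto (fun k => torusCorr n β (M k + 1) x y) atTop (𝓝 ℓ))) →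
        |ℓ| ≤ C * (1 + siteDist x y) ^ (-η)) := by
  intro n hn β η hβ hη
  obtain ⟨C, _, hbox, htor⟩ := decay_lattice n hn β η hβ hη
  refine ⟨C, hbox, htor, fun x y ℓ h => ?_⟩
  rcases h with ⟨Λ, hx, hy, hlim⟩ | ⟨M, hM, hlim⟩
  · exact le_of_tendsto hlim.abs (Eventually.of_forall fun k => hbox (Λ k) ⟨x, hx k⟩ ⟨y, hy k⟩)
  · refine le_of_tendsto hlim.abs ?_
    filter_upwards [hM.eventually_ge_atTop (2 * ((x.1 - y.1).natAbs + (x.2 - y.2).natAbs))] with k hk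
    refine htor (M k + 1) x y ?_ ?_ <;> rw [Int.abs_eq_natAbs] <;> omega

end Vale.Agent.Results.P163.PowerDecayLinearInN
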